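import Vale.Agent.P058h29.NotSub

/-!
The Leader-Russell-Walters conjecture is false: a cyclic kite is Ramsey but not subtransitive.
-/

open Vale.Agent.P058 Vale.Agent.P058h12 Vale.Agent.P058h29 in
/-- For `A` in `[0, 1)` let `kitePt A` be the four points `(√(1 - A²), -A)`, `(0, 1)`,
`(-√(1 - A²), -A)`, `(0, -1)` of the unit circle of the plane and `kite A` the set they form.
Then: every such kite (that is, every cyclic kite up to congruence) is Ramsey; for `A = 3 - 2 √2`
the four points are pairwise distinct, the kite is Ramsey and it is not subtransitive; hence the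
statement that a finite nonempty set is Ramsey if and only if it is subtransitive is false. -/
theorem Vale.Agent.Results.P058.AKiteRamseyNotSubtransitive.result :
    (∀ A : ℝ, 0 ≤ A → A < 1 → (∀ i, ‖kitePt A i‖ = 1) ∧ Function.Injective (kitePt A) ∧
      IsRamsey (kite A)) ∧
    (0 ≤ 3 - 2 * Real.sqrt 2 ∧ 3 - 2 * Real.sqrt 2 < 1 ∧
      IsRamsey (kite (3 - 2 * Real.sqrt 2)) ∧ ¬ IsSubtransitive (kite (3 - 2 * Real.sqrt 2))) ∧
    ¬ ∀ (k : ℕ) (X : Set (EuclideanSpace ℝ (Fin k))), X.Finite → X.Nonempty →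
      (IsRamsey X ↔ IsSubtransitive X) := by
  have ht2 : Real.sqrt 2 * Real.sqrt 2 = 2 := Real.mul_self_sqrt (by norm_num)
  have ht0 : 0 ≤ Real.sqrt 2 := Real.sqrt_nonneg 2
  have h0 : 0 ≤ 3 - 2 * Real.sqrt 2 := by nlinarith
  have h1 : 3 - 2 * Real.sqrt 2 < 1 := by nlinarith
  have hR := kite_ramsey _ h0 h1
  refine ⟨fun A hA0 hA1 => ⟨norm_kitePt (by nlinarith), kitePt_injective hA0 hA1,
    kite_ramsey A hA0 hA1⟩, ⟨h0, h1, hR, kite_not_subtransitive⟩, fun hall => ?_⟩
  exact kite_not_subtransitive ((hall 2 _ (Set.finite_range _) (Set.range_nonempty _)).1 hR)
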