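import Vale.Agent.P058h4.Heptagon
import Vale.Agent.P058h12.Ramsey

/-!
Not every spherical set is Ramsey: concyclic heptagons with algebraically independent stereographic
parameters are neither Ramsey nor subtransitive. The colouring is built from a derivation of the
real numbers over the rationals.
-/

open Vale.Agent.P058 Vale.Agent.P058h4 in
/-- Seven algebraically independent real parameters exist, and for any such parameters the seven
points `((1 - t^2) / (1 + t^2), 2 t / (1 + t^2))` of the unit circle of the plane are pairwise
distinct, the set they form is not Ramsey, and it is not subtransitive. -/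
theorem Vale.Agent.Results.P058.ConcyclicHeptagons.result :
    (∃ t : Fin 7 → ℝ, AlgebraicIndependent ℚ t) ∧
    ∀ t : Fin 7 → ℝ, AlgebraicIndependent ℚ t →
      (∀ x ∈ Set.range (fun i => pt (t i)), ‖x‖ = 1) ∧
      Function.Injective (fun i => pt (t i)) ∧
      ¬ IsRamsey (Set.range fun i => pt (t i)) ∧
      ¬ Vale.Agent.P058h12.IsSubtransitive (Set.range fun i => pt (t i)) := by
  refine ⟨exists_algebraicIndependent 7, fun t ht => ?_⟩
  have hR := main_heptagon t ht
  refine ⟨?_, pt_injective.comp ht.injective, hR, fun hS => hR (Vale.Agent.P058h12.subtransitive_ramsey hS)⟩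
  rintro x ⟨i, rfl⟩
  exact norm_pt _
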