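import Vale.Agent.P058h4.Sphericity

/-!
A necessary condition for Ramsey sets which strengthens sphericity: for every derivation of the real
numbers, the jets of a Ramsey set lie on a quadric of a special form.
-/

open Vale.Agent.P058 Vale.Agent.P058h4 in
/-- Let `p` be a finite family of points affinely spanning `ℝ^k` whose set is Ramsey, and let `Dv`
be any derivation of the real numbers (additive and Leibniz). Then, with `Dv` applied coordinatewise,
there are a number `α`, vectors `β`, `γ` and matrices `S`, `A` such that for every `i`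
`|Dv (p i)|^2 = α + ⟨β, p i⟩ + ⟨p i, S p i⟩ + ⟨γ, Dv (p i)⟩ + ∑ A l l' (p i l * Dv (p i l') - p i l' * Dv (p i l))`. -/
theorem Vale.Agent.Results.P058.DerivationQuadric.result {n k : ℕ} (hn : 0 < n)
    (p : Fin n → EuclideanSpace ℝ (Fin k))
    (hspan : ∀ (a : ℝ) (b : Fin k → ℝ), (∀ i, a + ∑ l, b l * p i l = 0) → a = 0 ∧ ∀ l, b l = 0)
    (hR : IsRamsey (Set.range p)) (Dv : ℝ → ℝ)
    (hadd : ∀ x y, Dv (x + y) = Dv x + Dv y) (hmul : ∀ x y, Dv (x * y) = x * Dv y + y * Dv x) :
    ∃ (α : ℝ) (β γ : Fin k → ℝ) (S A : Fin k → Fin k → ℝ), ∀ i,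
      ∑ l, (Dv (p i l)) ^ 2 = α + ∑ l, β l * p i l + ∑ l, ∑ l', S l l' * (p i l * p i l') +
        ∑ l, γ l * Dv (p i l) +
        ∑ l, ∑ l', A l l' * (p i l * Dv (p i l') - p i l' * Dv (p i l)) :=
  ramsey_jet_quadric hn p hspan hR Dv ⟨hadd, hmul⟩
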