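import Vale.Agent.P058h12.Ramsey

/-!
Every subtransitive set is Ramsey: one of the two implications of the Leader-Russell-Walters
conjecture, for all finite symmetry groups.
-/

/-- A set in `ℝ^k` which embeds, preserving all distances, into a finite set `X` of some `ℝ^n`
whose isometries (of `ℝ^n` mapping `X` onto itself) act transitively on `X`, is Ramsey. -/
theorem Vale.Agent.Results.P058.SubtransitiveRamsey.result {k : ℕ}
    {A : Set (EuclideanSpace ℝ (Fin k))} (h : Vale.Agent.P058h12.IsSubtransitive A) :
    Vale.Agent.P058.IsRamsey A :=
  Vale.Agent.P058h12.subtransitive_ramsey h
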