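import Vale.Agent.P058.Wrap

/-!
For all reals `a 0, a 1, a 2` and every `k`, the set of all vectors of `ℝ^k` with these entries in
three distinct positions and zeros elsewhere is Ramsey.
-/

theorem Vale.Agent.Results.P058.ZArrangementRamsey.result (k : ℕ) (a : Fin 3 → ℝ) :
    Vale.Agent.P058.IsRamsey (Vale.Agent.P058.arrangements k a) :=
  Vale.Agent.P058.arrangements_ramsey k a
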